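import Vale.Agent.P277W.Rows
import Mathlib.Analysis.Convex.Gauge
import Mathlib.Analysis.Convex.Cone.Extension

/-! P277W, rows CONE and AMP. -/

set_option linter.all false

open scoped Topology
open Vale.Agent.P272.K Vale.Agent.P285.H281.FD Vale.Agent.P277 Vale.Agent.P277Z.St Set Filter
open Function Vale.Agent.P277W

noncomputable section

namespace Vale.Agent.P277W73

theorem sep {H : Type} [AddCommGroup H] [Module ℝ H] {S : Set H} (h0 : (0 : H) ∈ S)
    (hc : Convex ℝ S) (ha : ∀ x, ∃ t : ℝ, 0 < t ∧ t • x ∈ S) {c : H} (hx : c ∉ S) :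
    ∃ φ : H →ₗ[ℝ] ℝ, φ c = 1 ∧ ∀ x ∈ S, φ x ≤ 1 := by
  have hab : Absorbent ℝ S := by
    refine absorbent_iff_eventually_nhdsNE_zero.2 fun x => ?_
    obtain ⟨t, ht, h1⟩ := ha x
    obtain ⟨u, hu, h2⟩ := ha (-x)
    refine mem_nhdsWithin_of_mem_nhds (mem_of_superset (Ioo_mem_nhds (neg_lt_zero.2 hu) ht) ?_)
    rintro r ⟨h3, h4⟩
    rcases le_total 0 r with h | h
    · have := hc.smul_mem_of_zero_mem h0 h1 (t := r / t) ⟨by positivity, (div_le_one ht).2 h4.le⟩
      rwa [smul_smul, div_mul_cancel₀ _ ht.ne'] at this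
    · have := hc.smul_mem_of_zero_mem h0 h2 (t := -r / u)
        ⟨div_nonneg (neg_nonneg.2 h) hu.le, (div_le_one hu).2 (by linarith)⟩
      rwa [smul_smul, div_mul_cancel₀ _ hu.ne', neg_smul_neg] at this
  let f : H →ₗ.[ℝ] ℝ := LinearPMap.mkSpanSingleton c 1 (ne_of_mem_of_not_mem h0 hx).symm
  have := exists_extension_of_le_sublinear f (gauge S) (fun c hc => gauge_smul_of_nonneg hc.le)
    (gauge_add_le hc hab) ?_
  · obtain ⟨φ, h1, h2⟩ := this
    refine ⟨φ, ?_, fun x hx => (h2 x).trans (gauge_le_one_of_mem hx)⟩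
    exact (h1 ⟨c, Submodule.mem_span_singleton_self _⟩).trans
      (LinearPMap.mkSpanSingleton'_apply_self _ _ _ _)
  rintro ⟨x, hx'⟩
  obtain ⟨y, rfl⟩ := Submodule.mem_span_singleton.1 hx'
  rw [LinearPMap.mkSpanSingleton'_apply]
  simp only [mul_one, smul_eq_mul, Submodule.coe_mk, RingHom.id_apply]
  obtain h | h := le_or_gt y 0
  · exact h.trans (gauge_nonneg _)
  · rw [gauge_smul_of_nonneg h.le, smul_eq_mul, le_mul_iff_one_le_right h]
    exact one_le_gauge_of_notMem (hc.starConvex h0) hab.absorbs hx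

theorem clo {H : Type} [AddCommGroup H] [Module ℝ H] {K : Set H}
    (h1 : ∀ a ∈ K, ∀ b ∈ K, a + b ∈ K) (h2 : ∀ a ∈ K, ∀ t : ℝ, 0 < t → t • a ∈ K)
    (h3 : ∀ a ∈ K, ∀ b, ∃ t : ℝ, 0 < t ∧ a + t • b ∈ K) {c : H}
    (hc : c ∈ @closure H (moduleTopology ℝ H) K) {a : H} (ha : a ∈ K) : c + a ∈ K := by
  by_contra hn
  have hcv : Convex ℝ {x | a + x ∈ K} := by
    refine convex_iff_forall_pos.2 fun x hx y hy s t hs ht hst => ?_
    have e : a + (s • x + t • y) = s • (a + x) + t • (a + y) := by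
      rw [smul_add, smul_add, add_add_add_comm, ← add_smul, hst, one_smul]
    show a + (s • x + t • y) ∈ K
    rw [e]
    exact h1 _ (h2 _ hx s hs) _ (h2 _ hy t ht)
  obtain ⟨φ, e1, e2⟩ := sep (S := {x | a + x ∈ K}) (c := c) (by simpa using ha) hcv (h3 a ha)
    (fun h => hn (by rw [add_comm]; exact h))
  have hK : ∀ k ∈ K, φ k ≤ 0 := fun k hk => by
    by_contra h
    have h' : 0 < φ k := not_le.1 h
    have := e2 ((2 / φ k) • k) (h1 _ ha _ (h2 _ hk _ (by positivity)))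
    rw [map_smul, smul_eq_mul, div_mul_cancel₀ _ h'.ne'] at this
    norm_num at this
  letI := moduleTopology ℝ H
  haveI : IsModuleTopology ℝ H := ⟨rfl⟩
  have hφ : Continuous φ := IsModuleTopology.continuous_of_linearMap φ
  have : c ∈ {x | φ x ≤ 0} := closure_minimal hK (isClosed_le hφ continuous_const) hc
  have h4 : φ c ≤ 0 := this
  linarith

theorem cone : CONE := by
  intro V _ _ A B K hA h1 h2 h3 c hc a ha
  obtain ⟨c', rfl, hc⟩ := hc
  have key := clo (K := (B.submoduleOf A).mkQ '' (A.subtype ⁻¹' K)) ?_ ?_ ?_ hc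
    (a := (B.submoduleOf A).mkQ ⟨a, hA ha⟩) ⟨_, ha, rfl⟩
  · obtain ⟨b, hb, e⟩ := key
    refine ⟨b, hb, ?_⟩
    rw [← map_add, eq_comm, Submodule.mkQ_apply, Submodule.mkQ_apply, Submodule.Quotient.eq] at e
    exact e
  · rintro _ ⟨x, hx, rfl⟩ _ ⟨y, hy, rfl⟩
    exact ⟨x + y, h1 _ hx _ hy, map_add _ _ _⟩
  · rintro _ ⟨x, hx, rfl⟩ t ht
    exact ⟨t • x, h2 _ hx t ht, map_smul _ _ _⟩
  · rintro _ ⟨x, hx, rfl⟩ b
    obtain ⟨y, rfl⟩ := (B.submoduleOf A).mkQ_surjective b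
    obtain ⟨t, ht, h⟩ := h3 _ hx y y.2
    exact ⟨t, ht, x + t • y, h, by rw [map_add, map_smul]⟩

theorem rAmple_ext {X Z : CSp} {f : X.pt → Z.pt} {k k' : ℕ} (L : Fin k' → Bd X.pt)
    (ε : Fin k → Fin k') (hε : Injective ε) (ρ : Fin k' → ℝ) (h0 : ∀ e ∉ range ε, ρ e = 0)
    (h : RAmple X Z f (fun e => L (ε e)) fun e => ρ (ε e)) : RAmple X Z f L ρ := by
  obtain ⟨q, A, x, hA, b, n, ν, y, h1, h2, h3⟩ := h
  refine ⟨q, A, x, hA, b, fun β => extend ε (n β) 0, ν, y, fun β => ?_, fun e => ?_, h3⟩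
  · obtain ⟨s, hs, hne⟩ := h1 β
    refine ⟨fun i => s (fun e => i.1 (ε e), i.2), ⟨fun i z hz hi => ?_, fun i j z hz hi hj => ?_⟩,
      fun i z hi => ?_⟩
    · exact hs.holo _ z hz ⟨fun e => hi.1 (ε e), hi.2⟩
    · refine (hs.change (fun e => i.1 (ε e), i.2) (fun e => j.1 (ε e), j.2) z hz
        ⟨fun e => hi.1 (ε e), hi.2⟩ ⟨fun e => hj.1 (ε e), hj.2⟩).trans ?_
      congr 1
      refine congrArg (· * _) (Fintype.prod_of_injective ε hε _ _ (fun e he => ?_) fun e => ?_)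
      · beta_reduce
        rw [extend_apply' _ _ _ he]
        exact zpow_zero _
      · beta_reduce
        rw [hε.extend_apply]
    · exact hne _ z ⟨fun e => hi.1 (ε e), hi.2⟩
  · by_cases he : e ∈ range ε
    · obtain ⟨e, rfl⟩ := he
      simp only [hε.extend_apply]
      exact h2 e
    · rw [h0 e he]
      refine (Finset.sum_eq_zero fun β _ => ?_).symm
      beta_reduce
      rw [extend_apply' _ _ _ he]
      simp

theorem amp : AMP := by
  intro X Z f κ Δ s q d hq hs hd h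
  obtain ⟨F, s', Q, hQ, hr, h⟩ := h
  have hex : ∀ t, ∃ u, q u = Q t := fun t => hs (hr ▸ mem_range_self t)
  choose e he using hex
  obtain rfl : Q = fun t => q (e t) := funext fun t => (he t).symm
  have hei : Injective e := fun a b hab => hQ (by simp only [hab])
  refine ⟨F.toQC q hq, rAmple_ext _ (Fin.cases 0 fun t => (e t).succ) ?_ _ ?_ ?_⟩
  · intro a b
    refine Fin.cases ?_ (fun a => ?_) a <;> refine Fin.cases ?_ (fun b => ?_) b <;> intro hab
    · rfl
    · exact absurd hab.symm (Fin.succ_ne_zero _)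
    · exact absurd hab (Fin.succ_ne_zero _)
    · exact congrArg Fin.succ (hei (Fin.succ_injective _ hab))
  · intro a
    refine Fin.cases (fun ha => absurd ⟨0, rfl⟩ ha) (fun t ha => ?_) a
    have h1 : Δ (q t) = 0 := by
      by_contra hn
      have h2 : q t ∈ range fun t => q (e t) := by
        rw [hr]
        exact Finsupp.mem_support_iff.2 hn
      obtain ⟨u, hu⟩ := h2
      exact ha ⟨u.succ, congrArg Fin.succ (hq hu)⟩
    show d t / _ = 0
    rw [← hd, h1, zero_div]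
  · convert h using 2 with a a
    · exact Fin.cases rfl (fun _ => rfl) a
    · refine Fin.cases rfl (fun t => ?_) a
      show d (e t) / _ = Δ (q (e t)) / _
      rw [hd]
      rfl

end Vale.Agent.P277W73
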