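import Vale.Agent.P277W13.Locp
import Vale.Agent.P277W66.Loc
import Vale.Agent.P277Z.St.Ord
import Vale.Agent.P277Z.St.Bas
import Vale.Agent.P277Z.St.First

/-!
# P277W, row EXP: the pull back of a Cartier divisor exists and is unique
-/

set_option linter.all false

open scoped Topology
open Vale.Agent.P277 hiding Amin IsFlipR
open Vale.Agent.P272.K Vale.Agent.P285.H281.FD Vale.Agent.P277Z Vale.Agent.P277Z.St Set Filter
open Vale.Agent.P277Z.St.Pr Vale.Agent.P277Z.Val Vale.Agent.P277W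
open Vale.Agent.P277.PH (HolF)

noncomputable section

namespace Vale.Agent.P277W73

variable {W : CSp} {g g' : Cm 4 → W.pt} {z z' : Cm 4} {ζ ζ' : Cm 4 → ℂ}

/-- the order along a hypersurface does not depend on the chart -/
theorem ord_chart {Q : Set W.pt} {Φ : W.pt → ℂ} {k : ℤ} (h : IsCh W g z) (h' : IsCh W g' z')
    (e : g' z' = g z) (k0 : Eqn ζ z) (k1 : Eqn ζ' z') (k2 : ∀ᶠ w in 𝓝 z, g w ∈ Q ↔ ζ w = 0)
    (k3 : ∀ᶠ w in 𝓝 z', g' w ∈ Q ↔ ζ' w = 0) (ho : Ord (fun w => Φ (g' w)) ζ' z' k) :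
    Ord (fun w => Φ (g w)) ζ z k := by
  obtain ⟨τ, a1, a2, a3⟩ := h'.trans h e.symm
  obtain ⟨σ, b1, b2, b3⟩ := h.trans h' e
  obtain ⟨-, V, Ω, k9, φ, -, -, h3⟩ := h'
  have t1 : Tendsto τ (𝓝 z) (𝓝 z') := a2 ▸ a1.continuousAt.tendsto
  have t2 : Tendsto σ (𝓝 z') (𝓝 z) := b2 ▸ b1.continuousAt.tendsto
  have an : AnalyticAt ℂ (fun w => ζ' (τ w)) z := k1.1.comp_of_eq a1 a2
  have nz : fderiv ℂ (fun w => ζ' (τ w)) z ≠ 0 := fun h0 => k1.2.2 (by
    have e1 : ζ' =ᶠ[𝓝 z'] (fun w => ζ' (τ w)) ∘ σ := by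
      filter_upwards [h3, (t1.comp t2).eventually h3, t2.eventually a3, b3] with w c1 c2 c3 c4
      exact congrArg ζ' (c1.symm.trans ((congrArg φ (c4.trans c3)).trans c2))
    rw [e1.fderiv_eq, fderiv_comp z' (b2.symm ▸ an.differentiableAt) b1.differentiableAt, b2, h0,
      ContinuousLinearMap.zero_comp])
  obtain ⟨v, v1, v2, v3⟩ := H762.exists_div_unit (n := 3) (V := Cm 4) (by simp) k0.1 k0.2.2 k0.2.1
    an nz (by
      filter_upwards [a3, t1.eventually k3, k2] with w c1 c2 c3 c4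
      exact c2.1 (c1 ▸ c3.2 c4))
  obtain ⟨u, u1, u2, u3⟩ := ho
  refine ⟨fun w => u (τ w) * v w ^ k, (u1.comp_of_eq a1 a2).mul (v1.zpow v2),
    mul_ne_zero (by rwa [a2]) (zpow_ne_zero _ v2), ?_⟩
  filter_upwards [a3, t1.eventually u3, v3, v1.continuousAt.eventually_ne v2] with w c1 c2 c3 c4 c5
  rw [c1, c2 (c3 ▸ mul_ne_zero c5 c4), c3, mul_zpow]
  ring

/-- the orders of a family of local functions which are monomials on a log resolution -/
theorem core (h0 : StPrime) (hT : THIN) (hW : IsNormal 4 W) {V : Lg} {r : V.W → W.pt}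
    {exc : Finset (Fin V.r)} (hr : Res V W r exc) (ha : ∀ l, IsAn W univ (r '' V.G l))
    {ι : Type} {U : ι → Set W.pt} (hU : ∀ i, IsOpen (U i)) (hc : ∀ x, ∃ i, x ∈ U i)
    {Φ : ι → W.pt → ℂ} {o : Fin V.r → ℤ}
    (hM : ∀ y i, r y ∈ U i → Mon V o (fun y' => Φ i (r y')) y)
    (hu : ∀ y ∉ V.E, ∀ i, r y ∈ U i → W.Hol (Φ i) (r y) ∧ Φ i (r y) ≠ 0) (E : PD W) :
    ∃ k : ℤ, (k ≠ 0 → ∃ l, E.1 = r '' V.G l) ∧
      ∀ k', OrdE W E.1 U (fun i g w => Φ i (g w)) k' ↔ k' = k := by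
  have := hW.sing.nonempty
  obtain ⟨k, S, h1, hS, loc⟩ : ∃ (k : ℤ) (S : Set W.pt), (k ≠ 0 → ∃ l, E.1 = r '' V.G l) ∧
      DimLe W 2 S ∧ ∀ i g z ζ, IsCh W g z → g z ∈ U i → Eqn ζ z →
        (∀ᶠ w in 𝓝 z, g w ∈ E.1 ↔ ζ w = 0) → g z ∉ S → Ord (fun w => Φ i (g w)) ζ z k := by
    by_cases hE : E.1 ⊆ r '' V.E
    · obtain ⟨l, hl⟩ := prime_eq (res_hol hr) ha E.2 hE
      refine ⟨o l, (r '' ⋃ l ∈ exc, V.G l) ∪ ⋃ a : {a : Fin V.r // a ≠ l},
        r '' (V.G l ∩ V.G a.1), fun _ => ⟨l, hl⟩, hr.dim.union (dimLe_iUnion fun a =>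
          dim_img (res_hol hr) (Val.U.thin_inter a.2.symm)), fun i g z ζ a1 a2 a3 a4 a5 => ?_⟩
      obtain ⟨y, hy, e⟩ := hl ▸ a4.self_of_nhds.2 a3.2.1
      have he : y ∉ ⋃ l ∈ exc, V.G l := fun h => a5 (.inl ⟨y, h, e⟩)
      have hk : ∀ k, k ≠ l → y ∉ V.G k := fun k b c =>
        a5 (.inr (mem_iUnion.2 ⟨⟨k, b⟩, y, ⟨hy, c⟩, e⟩))
      obtain ⟨ξ, hξ⟩ := V.exEq y
      have hat := PH.at_chartAt (n := 4) y
      set c := chartAt (Cm 4) y
      have z0 : ξ l y = 0 := (hξ.iff.self_of_nhds l).2 hy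
      have t := c.tendsto_symm hat.2
      refine ord_chart a1 (isCh_emb hr.emb he hat) (by simp only [c.left_inv hat.2, e]) a3
        (ζ' := fun w => ξ l (c.symm w)) ⟨hξ.hol l c hat, by simp only [c.left_inv hat.2, z0],
          ((hξ l).2 c hat).2 z0⟩ a4 ?_ ((hM y i (e ▸ a2)).ord hξ hk hat).1
      filter_upwards [t.eventually hξ.iff, t.eventually (hr.emb.isOpen.mem_nhds he)] with w c1 c2
      rw [c1 l, hl]
      exact ⟨fun ⟨y', e3, e4⟩ => hr.inj _ y' c2 e4 ▸ e3, fun e3 => ⟨_, e3, rfl⟩⟩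
    · have hT' : IsAn W univ (r '' V.E) := by
        rw [Lg.E, image_iUnion]
        exact an_iUnion ha
      refine ⟨0, _, fun h => absurd rfl h, hT W _ _ hW E.2 hT' hE,
        fun i g z ζ a1 a2 a3 a4 a5 => ?_⟩
      obtain ⟨y, e⟩ := hr.surj (g z)
      have hy : y ∉ V.E := fun h => a5 ⟨a4.self_of_nhds.2 a3.2.1, y, h, e⟩
      have := hu y hy i (e ▸ a2)
      rw [e] at this
      exact ⟨_, a1.1.analyticAt this.1, this.2, Eventually.of_forall fun w _ => by simp⟩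
  refine ⟨k, h1, fun k' => ⟨?_, ?_⟩⟩
  · rintro ⟨i, g, z, ζ, a1, a2, a3, a4, a5⟩
    obtain ⟨w, ⟨w1, w2⟩, w3, w4, w5, w6⟩ := ((hyp W g z ζ _ a1 a3 hS).and_eventually
      (a1.eventually.and (a4.eventually_nhds.and ((oun _ _ _ _ a3 a5).2.and
        (a1.1.1.eventually ((hU i).mem_nhds a2)))))).exists
    exact (oun _ _ _ _ (w5 w1).1 (w5 w1).2).1 _ (loc i g w ζ w3 w6 (w5 w1).1 w4 w2)
  · rintro rfl
    obtain ⟨S', hS'⟩ := h0 W Unit (fun _ => E.1) hW (fun _ => E.2) fun _ _ _ => rfl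
    obtain ⟨x, hx, hn⟩ := not_subset.1 fun h => E.2.dim' ((hS.union hS'.dim).mono h)
    obtain ⟨g, z, ζ, a1, rfl, a3, a4⟩ := (hS'.hyp () x hx fun h => hn (.inr h)).1
    obtain ⟨i, hi⟩ := hc (g z)
    exact ⟨i, g, z, ζ, a1, hi, a3, a4, loc i g z ζ a1 hi a3 a4 fun h => hn (.inl h)⟩

/-- from the orders to the divisor -/
theorem exists_div {ι : Type} [Finite ι] {G : ι → Set W.pt} {P : PD W → ℤ → Prop} (c : ℝ)
    (h : ∀ E : PD W, ∃ k : ℤ, (k ≠ 0 → ∃ l, E.1 = G l) ∧ ∀ k', P E k' ↔ k' = k) :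
    ∃! Γ : Div W, ∀ E, ∃ k : ℤ, P E k ∧ Γ E = k / c := by
  choose k h1 h2 using h
  have fin : (Function.support fun E => (k E : ℝ) / c).Finite := by
    refine ((finite_range G).preimage (f := Subtype.val) Subtype.val_injective.injOn).subset
      fun E hE => ?_
    obtain ⟨l, hl⟩ := h1 E fun e => hE (by simp [e])
    exact ⟨l, hl.symm⟩
  refine ⟨Finsupp.ofSupportFinite _ fin, fun E => ⟨k E, (h2 E _).2 rfl, rfl⟩, fun Γ hΓ => ?_⟩
  ext E
  obtain ⟨k', a, b⟩ := hΓ E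
  rw [b, (h2 E _).1 a]
  rfl

theorem exp_of (h0 : GH.StRes0) (h1 : GH.StPrin) (h2 : GH.StComp) (h3 : GH.StFam)
    (h4 : Pj.RAP) (h5 : Pj.PRJS) (h6 : Pj.REMG) (hT : THIN) : EXP := by
  intro W X q A C hW hX hb
  have := hX.sing.nonempty
  have hq : ∀ x, HolMap W X q x := fun x => ⟨hb.cont.continuousAt, hb.holo x⟩
  have hc := C.cart
  obtain ⟨V, r, exc, hr, hE⟩ := logres_of h0 h1 h2 h3 W hW (q ⁻¹' ⋃ t : C.D.support, t.1.1)
    ((an_iUnion fun t : C.D.support => t.1.2.an).preimage hq)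
    (Fst.bim_dense hb (dense_compl_of_dimLe (by norm_num) hX.dense
      (dimLe_iUnion fun t : C.D.support => t.1.2.dim)))
  have ha := img_of h5 h6 V W r (res_hol hr) (res_prj h4 hr)
  have hn : ∀ y ∉ V.E, q (r y) ∉ ⋃ t : C.D.support, t.1.1 := fun y hy e => hy (hE y e)
  have hh : ∀ y g, X.Hol g (q (r y)) → HolF 4 (fun y => g (q (r y))) y := fun y g hg =>
    hr.hol y _ (hb.holo _ g hg)
  have ct : Continuous fun y => q (r y) := hb.cont.comp hr.cont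
  obtain ⟨o, ho⟩ := exists_glob' (V := V) (fun i => (fun y => q (r y)) ⁻¹' C.L.U i)
    (fun i y => C.σ i (q (r y))) (fun i => (hc.lb.isOpen i).preimage ct) (fun y => hc.lb.cover _)
    (fun i y hy => by
      obtain ⟨u, v, hu, hv, h⟩ := hc.mer i _ hy
      have k1 := ct.continuousAt.eventually h
      refine exists_mon (hh y _ hu) (hh y _ hv) (fun e => ?_) ?_
      · obtain ⟨x, ⟨a, b⟩, c, d⟩ := mem_closure_iff_nhds.1 (((Fst.res_dense hr hb.dense).inter_of_isOpen_right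
          (Fst.dense_exc V exc) hr.emb.isOpen) y) _ (k1.and e.eventually_nhds)
        refine a.1 (hb.evO c (p := fun z => v z = 0) ?_)
        rw [← hr.emb.map_nhds d]
        exact b
      · filter_upwards [k1, ((hc.lb.isOpen i).preimage ct).mem_nhds hy] with x a b c
        exact ⟨hh x _ (hc.sec.holo i _ (hn x c) b), hc.ne i _ b (hn x c), a.2 (hn x c)⟩)
    fun i j y hi hj => ⟨_, hh y _ (hc.lb.holo j i _ hj hi), hc.lb.ne_zero j i _ hj hi, by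
      filter_upwards [((hc.lb.isOpen i).preimage ct).mem_nhds hi,
        ((hc.lb.isOpen j).preimage ct).mem_nhds hj] with x a b c
      exact hc.sec.change j i _ (hn x c) b a⟩
  exact exists_div (C.r : ℝ) (core (prime_of h0 h1 h2 h3 h4 h5 h6) hT hW hr ha
    (U := fun i => q ⁻¹' C.L.U i) (Φ := fun i x => C.σ i (q x))
    (fun i => (hc.lb.isOpen i).preimage hb.cont) (fun x => hc.lb.cover _) (fun y i => ho i y)
    fun y hy i hi => ⟨hb.holo _ _ (hc.sec.holo i _ (hn y hy) hi), hc.ne i _ hi (hn y hy)⟩)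

end Vale.Agent.P277W73
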